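import Mathlib
import Vale.Agent.P038.Out

/-
P038: the second neighbourhood inequality for oriented graphs in which the two
ends of every arc have at most k common out-neighbours, k ≤ 2 or 3k ≤ min outdegree.
-/

namespace Vale.Agent.Results.P038.FewCommonOut

open Finset

theorem main {V : Type*} [Fintype V] [DecidableEq V] [Nonempty V] (A : V → V → Prop)
    [DecidableRel A] (k : ℕ) (hA : ∀ u v, A u v → ¬ A v u)
    (hk : ∀ x y, A x y → (univ.filter fun z => A x z ∧ A y z).card ≤ k)
    (hd : k ≤ 2 ∨ ∀ v, 3 * k ≤ (univ.filter fun u => A v u).card) :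
    ∃ v, (univ.filter fun u => A v u).card ≤
      (univ.filter fun w => w ≠ v ∧ ¬ A v w ∧ ∃ u, A v u ∧ A u w).card := by
  by_contra hcon
  push Not at hcon
  let N : V → Finset V := fun x => univ.filter fun u => A x u
  let M : V → Finset V := fun x =>
    univ.filter fun w => w ≠ x ∧ ¬ A x w ∧ ∃ u, A x u ∧ A u w
  have memN : ∀ {x y}, y ∈ N x ↔ A x y := by intro x y; simp [N]
  have hirr : ∀ x, ¬ A x x := fun x h => hA x x h h
  obtain ⟨v, -, hv⟩ := exists_min_image (univ : Finset V) (fun x => (N x).card) univ_nonempty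
  set T := N v with hT
  set W := M v with hW
  set δ := T.card with hδ
  have hWc : W.card < δ := hcon v
  have hmin : ∀ x, δ ≤ (N x).card := fun x => hv x (mem_univ x)
  let D : V → Finset V := fun x => N x ∩ T
  let E : V → Finset V := fun x => N x \ T
  have hsplit : ∀ x, (D x).card + (E x).card = (N x).card := fun x =>
    card_inter_add_card_sdiff (N x) T
  have hEW : ∀ u ∈ T, E u ⊆ W := by
    intro u hu z hz
    rw [hT, memN] at hu
    simp only [E, mem_sdiff, hT, memN] at hz
    simp only [hW, M, mem_filter, mem_univ, true_and]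
    exact ⟨fun e => hA _ _ hu (e ▸ hz.1), hz.2, u, hu, hz.1⟩
  have hDk : ∀ u ∈ T, (D u).card ≤ k := by
    intro u hu
    refine le_trans (card_le_card ?_) (hk v u (memN.1 hu))
    intro z hz
    simp only [D, mem_inter, hT, memN] at hz
    simp [hz.1, hz.2]
  have hD1 : ∀ u ∈ T, 1 ≤ (D u).card := by
    intro u hu
    have := card_le_card (hEW u hu)
    have := hsplit u
    have := hmin u
    omega
  have hDs : ∀ {x y}, y ∈ D x → A x y ∧ y ∈ T := by
    intro x y h
    simp only [D, mem_inter, memN] at h
    exact h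
  have hDm : ∀ {x y}, A x y → y ∈ T → y ∈ D x := fun h h' => by
    simp only [D, mem_inter, memN]; exact ⟨h, h'⟩
  have key : ∀ u ∈ T, ∀ y ∈ D u,
      2 * δ + (D u ∩ D y).card ≤ (D u).card + (D y).card + W.card + k := by
    intro u hu y hy
    have hyT := (hDs hy).2
    have h1 : (E u ∪ E y).card ≤ W.card :=
      card_le_card (union_subset (hEW u hu) (hEW y hyT))
    have h2 := card_union_add_card_inter (E u) (E y)
    have h3 : ((D u ∩ D y) ∪ (E u ∩ E y)).card ≤ k := by
      refine le_trans (card_le_card ?_) (hk u y (hDs hy).1)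
      intro z hz
      simp only [D, E, mem_union, mem_inter, mem_sdiff, memN] at hz
      simp only [mem_filter, mem_univ, true_and]
      rcases hz with h | h
      · exact ⟨h.1.1, h.2.1⟩
      · exact ⟨h.1.1, h.2.1⟩
    rw [card_union_of_disjoint] at h3
    · have := hsplit u
      have := hsplit y
      have := hmin u
      have := hmin y
      omega
    · rw [disjoint_left]
      intro z h h'
      simp only [D, E, mem_inter, mem_sdiff] at h h'
      exact h'.1.2 h.1.2
  have hne : ∀ u ∈ T, ∃ y, y ∈ D u := fun u hu =>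
    card_pos.1 (hD1 u hu)
  obtain ⟨u₀, hu₀⟩ : T.Nonempty := card_pos.1 (by omega)
  obtain ⟨a₀, ha₀⟩ := hne u₀ hu₀
  have ha₀T := (hDs ha₀).2
  obtain ⟨b₀, hb₀⟩ := hne a₀ ha₀T
  have hb₀T := (hDs hb₀).2
  have key₀ := key u₀ hu₀ a₀ ha₀
  have hu₀k := hDk u₀ hu₀
  have ha₀k := hDk a₀ ha₀T
  have hlt : δ < 3 * k := by omega
  have hk2 : k ≤ 2 := by
    rcases hd with h | h
    · exact h
    · exact absurd (h v) (by
        change ¬ 3 * k ≤ δ
        omega)
  -- three distinct vertices in T
  have hua : u₀ ≠ a₀ := fun e => hirr u₀ (by simpa [← e] using (hDs ha₀).1)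
  have hab : a₀ ≠ b₀ := fun e => hirr a₀ (by simpa [← e] using (hDs hb₀).1)
  have hub : u₀ ≠ b₀ := fun e => hA _ _ (hDs ha₀).1 (by simpa [← e] using (hDs hb₀).1)
  have h3T : ({u₀, a₀, b₀} : Finset V) ⊆ T := by
    simp [insert_subset_iff, hu₀, ha₀T, hb₀T]
  have h3c : ({u₀, a₀, b₀} : Finset V).card = 3 := by
    simp [hua, hab, hub]
  have hδ3 : 3 ≤ δ := h3c ▸ card_le_card h3T
  have hδ5 : δ ≤ 5 := by omega
  rcases Nat.lt_or_ge δ 4 with hδ4 | hδ4
  · -- minimum outdegree three
    have hTeq : ({u₀, a₀, b₀} : Finset V) = T :=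
      eq_of_subset_of_card_le h3T (by omega)
    have hbu : A b₀ u₀ := by
      obtain ⟨c, hc⟩ := hne b₀ hb₀T
      obtain ⟨hbc, hcT⟩ := hDs hc
      rw [← hTeq] at hcT
      simp only [mem_insert, mem_singleton] at hcT
      rcases hcT with rfl | rfl | rfl
      · exact hbc
      · exact absurd hbc (hA _ _ (hDs hb₀).1)
      · exact absurd hbc (hirr _)
    have hD : ∀ x ∈ T, (D x).card = 1 := by
      intro x hx
      have h1 := hD1 x hx
      by_contra hne1
      obtain ⟨p, hp, q, hq, hpq⟩ := one_lt_card.1 (by omega : 1 < (D x).card)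
      obtain ⟨hxp, hpT⟩ := hDs hp
      obtain ⟨hxq, hqT⟩ := hDs hq
      rw [← hTeq] at hx hpT hqT
      simp only [mem_insert, mem_singleton] at hx hpT hqT
      have hua' := (hDs ha₀).1
      have hab' := (hDs hb₀).1
      rcases hx with rfl | rfl | rfl <;> rcases hpT with rfl | rfl | rfl <;>
        rcases hqT with rfl | rfl | rfl <;>
          first
          | exact hpq rfl
          | exact hirr _ hxp
          | exact hirr _ hxq
          | exact hA _ _ hua' hxp
          | exact hA _ _ hua' hxq
          | exact hA _ _ hab' hxp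
          | exact hA _ _ hab' hxq
          | exact hA _ _ hbu hxp
          | exact hA _ _ hbu hxq
    have hEeq : ∀ x ∈ T, E x = W ∧ W.card = 2 := by
      intro x hx
      have h1 := hD x hx
      have h2 := hsplit x
      have h4 := hmin x
      have h5 := card_le_card (hEW x hx)
      exact ⟨eq_of_subset_of_card_le (hEW x hx) (by omega), by omega⟩
    obtain ⟨hEu, hW2⟩ := hEeq u₀ hu₀
    have hNu : (N u₀).card = 3 := by
      have := hsplit u₀
      have := hD u₀ hu₀
      rw [hEu] at *
      omega
    obtain ⟨w, hw⟩ : W.Nonempty := card_pos.1 (by omega)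
    have hTw : ∀ x ∈ T, A x w := by
      intro x hx
      have : w ∈ E x := by rw [(hEeq x hx).1]; exact hw
      simp only [E, mem_sdiff, memN] at this
      exact this.1
    have hNw : ((N w) \ W).card ≥ 2 := by
      have h1 : N w ∩ W ⊆ W.erase w := by
        intro z hz
        simp only [mem_inter, memN] at hz
        exact mem_erase.2 ⟨fun e => hirr w (e ▸ hz.1), hz.2⟩
      have := card_le_card h1
      have := card_erase_of_mem hw
      have := card_inter_add_card_sdiff (N w) W
      have := hmin w
      omega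
    have hsub : insert b₀ (N w \ W) ⊆ M u₀ := by
      intro z hz
      simp only [M, mem_filter, mem_univ, true_and]
      rcases mem_insert.1 hz with rfl | hz
      · exact ⟨hub.symm, hA _ _ hbu, a₀, (hDs ha₀).1, (hDs hb₀).1⟩
      · simp only [mem_sdiff, memN] at hz
        refine ⟨fun e => hA _ _ (hTw u₀ hu₀) (e ▸ hz.1), ?_, w, hTw u₀ hu₀, hz.1⟩
        intro hz'
        by_cases hzT : z ∈ T
        · exact hA _ _ (hTw z hzT) hz.1
        · apply hz.2
          rw [← hEu]
          simp only [E, mem_sdiff, memN]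
          exact ⟨hz', hzT⟩
    have hnot : b₀ ∉ N w \ W := by
      simp only [mem_sdiff, memN, not_and]
      exact fun h => absurd h (hA _ _ (hTw b₀ hb₀T))
    have := card_le_card hsub
    rw [card_insert_of_notMem hnot] at this
    have h9 : (M u₀).card < (N u₀).card := hcon u₀
    omega
  · -- minimum outdegree four or five
    have hDeq : ∀ x, T.filter (A x ·) = D x := by
      intro x
      ext z
      simp [D, N, and_comm]
    rcases Nat.lt_or_ge δ 5 with hδ5' | hδ5'
    · refine Vale.Agent.P038.no_four A hA T (by omega) ?_ ?_ ?_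
      · intro x hx; rw [hDeq]; exact hD1 x hx
      · intro x hx; rw [hDeq]; have := hDk x hx; omega
      · intro x hx y hy hxy
        rw [hDeq, hDeq]
        have := key x hx y (hDm hxy hy)
        omega
    · refine Vale.Agent.P038.no_five A hA T (by omega) ?_ ?_
      · intro x hx
        rw [hDeq]
        obtain ⟨y, hy⟩ := hne x hx
        have := key x hx y hy
        have := hDk x hx
        have := hDk y (hDs hy).2
        omega
      · intro x hx y hy z hz hxy hxz hyz
        have := card_pos.2 ⟨z, mem_inter.2 ⟨hDm hxz hz, hDm hyz hz⟩⟩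
        have := key x hx y (hDm hxy hy)
        have := hDk x hx
        have := hDk y hy
        omega

/-- Every finite nonempty oriented graph in which the ends of each arc have at most `k`
common out-neighbours has a vertex `v` with `|N₁(v)| ≤ |N₂(v)|`, if `k ≤ 2` or every
outdegree is at least `3k`. -/
theorem result :
    ∀ (V : Type) [Finite V] [Nonempty V] (A : V → V → Prop) (k : ℕ),
      (∀ u v, A u v → ¬ A v u) →
      (∀ x y, A x y → {z | A x z ∧ A y z}.ncard ≤ k) →
      (k ≤ 2 ∨ ∀ v, 3 * k ≤ {u | A v u}.ncard) →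
      ∃ v, {u | A v u}.ncard ≤
        {w | w ≠ v ∧ ¬ A v w ∧ ∃ u, A v u ∧ A u w}.ncard := by
  intro V _ _ A k hA hk hd
  classical
  have : Fintype V := Fintype.ofFinite V
  simp only [Set.ncard_eq_toFinset_card', Set.toFinset_ofPred] at hk hd ⊢
  refine Exists.imp (fun v hv => ?_) (main A k hA (fun x y h => ?_) ?_)
  · convert hv using 3
  · convert hk x y h using 3
  · convert hd using 6

end Vale.Agent.Results.P038.FewCommonOut
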