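import Mathlib
import Vale.Agent.P038.K4.Main

/-
P038: the second neighbourhood inequality for oriented graphs whose underlying graph has no K4.
-/

namespace Vale.Agent.Results.P038.K4Free

/-- Every finite nonempty oriented graph whose underlying graph contains no four pairwise
adjacent vertices has a vertex `v` with `|N₁(v)| ≤ |N₂(v)|`. -/
theorem result :
    ∀ (V : Type) [Finite V] [Nonempty V] (A : V → V → Prop),
      (∀ u v, A u v → ¬ A v u) →
      (∀ a b c d, (A a b ∨ A b a) → (A a c ∨ A c a) → (A a d ∨ A d a) → (A b c ∨ A c b) →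
        (A b d ∨ A d b) → (A c d ∨ A d c) → False) →
      ∃ v, {u | A v u}.ncard ≤
        {w | w ≠ v ∧ ¬ A v w ∧ ∃ u, A v u ∧ A u w}.ncard := by
  intro V _ _ A hA hK
  classical
  have : Fintype V := Fintype.ofFinite V
  simp only [Set.ncard_eq_toFinset_card', Set.toFinset_ofPred]
  refine Exists.imp (fun v hv => ?_) (Vale.Agent.P038.K4.main (A := A) hA hK)
  convert hv using 3

end Vale.Agent.Results.P038.K4Free
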